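import Vale.Agent.P084.TwoLines.Faces

/-!
P084: a sphere isometry out of a space with a symmetric facet is affine on the facet.
-/

namespace Vale.Agent.P084.TwoLines

open Filter Topology Metric

variable {X Y : Type*} [NormedAddCommGroup X] [NormedSpace ℝ X]
  [NormedAddCommGroup Y] [NormedSpace ℝ Y]

/-- A centrally symmetric facet `{c : ‖c‖ = 1 ∧ φ c = 1}` of the ball around `p`, large enough
that its dilate by `2 - |φ x|` contains the horizontal part of each unit vector `x`. -/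
structure Facet (φ : X →L[ℝ] ℝ) (p : X) : Prop where
  le : ∀ v, |φ v| ≤ ‖v‖
  one : φ p = 1
  symm : ∀ w, φ w = 0 → ‖p + w‖ = 1 → ‖p - w‖ = 1
  interior : ∃ ρ > 0, ∀ w, φ w = 0 → ‖w‖ ≤ ρ → ‖p + w‖ = 1
  cover : ∀ x, ‖x‖ = 1 → ‖p + (2 - |φ x|)⁻¹ • (x - φ x • p)‖ = 1

variable {φ : X →L[ℝ] ℝ} {p : X}

theorem Facet.norm_p (hP : Facet φ p) : ‖p‖ = 1 := by
  obtain ⟨ρ, hρ, hi⟩ := hP.interior
  simpa using hi 0 (map_zero _) (by simpa using hρ.le)

theorem Facet.margin (hP : Facet φ p) :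
    ∃ ρ > 0, ρ ≤ 1 ∧ ∀ u, φ u = 1 → ‖u - p‖ ≤ ρ → ‖u‖ = 1 := by
  obtain ⟨ρ, hρ, hi⟩ := hP.interior
  refine ⟨min ρ 1, lt_min hρ one_pos, min_le_right _ _, fun u hu hd => ?_⟩
  have := hi (u - p) (by rw [map_sub, hu, hP.one, sub_self]) (hd.trans (min_le_left _ _))
  rwa [add_sub_cancel] at this

/-- Near an interior point of the facet the sphere is the facet. -/
theorem Facet.near (hP : Facet φ p) {c v : X} {μ ε : ℝ} (hc : φ c = 1)
    (hμ : ∀ u, φ u = 1 → ‖u - c‖ ≤ μ → ‖u‖ = 1) (hv : ‖v‖ = 1) (hvc : ‖v - c‖ ≤ ε)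
    (hε : 2 * ε ≤ 1) (hεμ : 3 * ε ≤ μ) : φ v = 1 := by
  have hε0 : 0 ≤ ε := (norm_nonneg _).trans hvc
  have e := abs_le.1 ((hP.le (v - c)).trans hvc)
  rw [map_sub, hc] at e
  have e1 := (abs_le.1 (hv ▸ hP.le v)).2
  have hs : 0 < φ v := by linarith
  set u := (φ v)⁻¹ • v with hu
  have hi : 1 ≤ (φ v)⁻¹ := one_le_inv₀ hs |>.2 e1
  have h2 : (φ v)⁻¹ ≤ 1 + 2 * ε := by
    rw [inv_le_iff_one_le_mul₀ hs]
    nlinarith
  have huv : ‖u - v‖ ≤ 2 * ε := by
    rw [show u - v = ((φ v)⁻¹ - 1) • v by rw [hu, sub_smul, one_smul], norm_smul, hv, mul_one,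
      Real.norm_of_nonneg (by linarith)]
    linarith
  have hun := hμ u (by rw [hu, map_smul, smul_eq_mul, inv_mul_cancel₀ hs.ne'])
    (by linarith [norm_sub_le_norm_sub_add_norm_sub u v c])
  rw [hu, norm_smul, hv, mul_one, Real.norm_of_nonneg (by linarith), inv_eq_one] at hun
  exact hun

theorem Facet.far (hP : Facet φ p) {v w : X} (hv : ‖v‖ = 1) (hw : ‖w‖ = 1) (hφv : φ v = 1)
    (hφw : φ w = -1) : ‖v - w‖ = 2 := by
  refine le_antisymm ((norm_sub_le _ _).trans (by linarith)) ?_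
  have := hP.le (v - w)
  rw [map_sub, hφv, hφw, sub_neg_eq_add] at this
  norm_num at this
  exact this

/-- Being at distance two from `-p` characterizes the facet. -/
theorem Facet.of_far (hP : Facet φ p) {c : X} (hc : ‖c‖ = 1) (h : ‖c + p‖ = 2) : φ c = 1 := by
  obtain ⟨ψ, hψ1, hψ2⟩ := exists_dual_vector'' ℝ (c + p)
  have hle : ∀ v, ψ v ≤ ‖v‖ := fun v => by
    have := ψ.le_of_opNorm_le hψ1 v
    rw [one_mul, Real.norm_eq_abs] at this
    exact (le_abs_self _).trans this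
  have e : ψ c + ψ p = 2 := by rw [← map_add, hψ2, h]; norm_num
  have ec := hle c
  have ep := hle p
  rw [hc] at ec
  rw [hP.norm_p] at ep
  have hp1 : ψ p = 1 := by linarith
  obtain ⟨ρ, hρ, hi⟩ := hP.interior
  have hker : ∀ w, φ w = 0 → ψ w = 0 := by
    have one_side : ∀ w, φ w = 0 → ψ w ≤ 0 := by
      intro w hw
      set s := ρ / (‖w‖ + 1) with hs
      have hs0 : 0 < s := by positivity
      have hn : ‖s • w‖ ≤ ρ := by
        rw [norm_smul, Real.norm_of_nonneg hs0.le, hs, div_mul_eq_mul_div,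
          div_le_iff₀ (by positivity)]
        linarith [mul_nonneg hρ.le (norm_nonneg w)]
      have := hle (p + s • w)
      rw [hi _ (by simp [hw]) hn, map_add, map_smul, hp1, smul_eq_mul] at this
      exact nonpos_of_mul_nonpos_right (by linarith) hs0
    intro w hw
    have h2 := one_side (-w) (by simp [hw])
    rw [map_neg] at h2
    linarith [one_side w hw]
  have := hker (c - φ c • p) (by simp [hP.one])
  rw [map_sub, map_smul, hp1, smul_eq_mul, mul_one] at this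
  linarith

/-- An isometry of a convex body into a hyperplane, locally onto, is affine. -/
theorem affine_on {Z : Type*} [NormedAddCommGroup Z] [NormedSpace ℝ Z] (K : Set Z)
    (hK : Convex ℝ K) {ρ : ℝ} (hρ0 : 0 < ρ) (hρ1 : ρ ≤ 1) (hball : ∀ z, ‖z‖ ≤ ρ → z ∈ K)
    (hbd : ∀ z ∈ K, ‖z‖ ≤ 2) (h : Z → Y) (φ : Y →L[ℝ] ℝ)
    (hiso : ∀ a ∈ K, ∀ b ∈ K, ‖h a - h b‖ = ‖a - b‖) (hφ1 : ∀ z ∈ K, φ (h z) = 1)
    (honto : ∀ m μ w, μ ≤ 1 → (∀ z, ‖z - m‖ ≤ μ → z ∈ K) → φ w = 1 →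
      6 * ‖w - h m‖ ≤ μ → ∃ z ∈ K, h z = w) :
    ∃ L : Z →ₗ[ℝ] Y, (∀ z ∈ K, h z = h 0 + L z) ∧ (∀ z, φ (L z) = 0 ∧ ‖L z‖ = ‖z‖) ∧
      ∀ w, φ w = 0 → ∃ z, L z = w := by
  have h0 : (0 : Z) ∈ K := hball 0 (by simpa using hρ0.le)
  have half : ∀ x ∈ K, ∀ y ∈ K, (2⁻¹ : ℝ) • (x + y) ∈ K := fun x hx y hy => by
    rw [smul_add]; exact hK hx hy (by norm_num) (by norm_num) (by norm_num)
  -- midpoints of close pairs
  have hclose : ∀ (x y : Z) (μ : ℝ), 0 < μ → μ ≤ 1 →
      (∀ z, ‖z - (2⁻¹ : ℝ) • (x + y)‖ ≤ μ → z ∈ K) → 6 * ‖x - y‖ ≤ μ →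
      h ((2⁻¹ : ℝ) • (x + y)) = (2⁻¹ : ℝ) • (h x + h y) := by
    intro x y μ hμ0 hμ1 hmar hxy
    set m := (2⁻¹ : ℝ) • (x + y) with hm
    set d := ‖x - y‖ / 2 with hd
    have hd0 : 0 ≤ d := by positivity
    have hmx : ‖m - x‖ = d := by
      rw [show m - x = (2⁻¹ : ℝ) • (y - x) by rw [hm]; module, norm_smul, norm_sub_rev, hd]
      norm_num; ring
    have hmy : ‖m - y‖ = d := by
      rw [show m - y = (2⁻¹ : ℝ) • (x - y) by rw [hm]; module, norm_smul, hd]
      norm_num; ring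
    have hx : x ∈ K := hmar x (by rw [norm_sub_rev, hmx]; linarith)
    have hy : y ∈ K := hmar y (by rw [norm_sub_rev, hmy]; linarith)
    have hmK : m ∈ K := hmar m (by simpa using hμ0.le)
    have hsph : ∀ z, ‖z - x‖ = d → z ∈ K ∧ ‖z - m‖ ≤ 2 * d := fun z hz => by
      have := norm_sub_le_norm_sub_add_norm_sub z x m
      rw [hz, norm_sub_rev x m, hmx] at this
      exact ⟨hmar z (by linarith), by linarith⟩
    have hB : ∀ w, φ w = 1 → ‖w - h x‖ = d → ∃ z ∈ K, h z = w := by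
      intro w hw hwx
      refine honto m μ w hμ1 hmar hw ?_
      have := norm_sub_le_norm_sub_add_norm_sub w (h x) (h m)
      rw [hiso x hx m hmK, norm_sub_rev x m, hmx, hwx] at this
      linarith
    classical
    refine centre_fixed {z | ‖z - x‖ = d ∧ ‖z - y‖ = d}
      {w | φ w = 1 ∧ ‖w - h x‖ = d ∧ ‖w - h y‖ = d} h (Function.invFunOn h K) m _ (2 * d)
      ⟨hmx, hmy⟩ (fun z hz => ?_) (fun w hw => ?_) (fun z hz => (hsph z hz.1).2) (fun z hz => ?_)
      (fun w hw => ?_) (fun z hz => ?_) (fun w hw => Function.invFunOn_eq (hB w hw.1 hw.2.1))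
      (fun a ha b hb => hiso a (hsph a ha.1).1 b (hsph b hb.1).1)
    · constructor
      · rw [← hz.2, show m + m - z - x = -(z - y) by rw [hm]; module, norm_neg]
      · rw [← hz.1, show m + m - z - y = -(z - x) by rw [hm]; module, norm_neg]
    · refine ⟨?_, ?_, ?_⟩
      · simp only [map_sub, map_add, map_smul, smul_eq_mul, hφ1 x hx, hφ1 y hy, hw.1]
        norm_num
      · rw [← hw.2.2, show (2⁻¹ : ℝ) • (h x + h y) + (2⁻¹ : ℝ) • (h x + h y) - w - h x =
          -(w - h y) by module, norm_neg]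
      · rw [← hw.2.1, show (2⁻¹ : ℝ) • (h x + h y) + (2⁻¹ : ℝ) • (h x + h y) - w - h y =
          -(w - h x) by module, norm_neg]
    · have hzK := (hsph z hz.1).1
      exact ⟨hφ1 z hzK, (hiso z hzK x hx).trans hz.1, (hiso z hzK y hy).trans hz.2⟩
    · have he := Function.invFunOn_eq (hB w hw.1 hw.2.1)
      have hk := Function.invFunOn_mem (hB w hw.1 hw.2.1)
      constructor
      · rw [← hiso _ hk x hx, he]; exact hw.2.1
      · rw [← hiso _ hk y hy, he]; exact hw.2.2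
    · have hzK := (hsph z hz.1).1
      have he := Function.invFunOn_eq (f := h) ⟨z, hzK, rfl⟩
      have hk := Function.invFunOn_mem (f := h) ⟨z, hzK, rfl⟩
      have := hiso _ hk z hzK
      rw [he, sub_self, norm_zero] at this
      exact eq_of_norm_sub_eq_zero this.symm
  -- midpoints of pairs with a margin, by subdivision
  have hopen : ∀ (x y : Z) (μ : ℝ), 0 < μ → μ ≤ 1 → (∀ z, ‖z - x‖ ≤ μ → z ∈ K) →
      (∀ z, ‖z - y‖ ≤ μ → z ∈ K) → h ((2⁻¹ : ℝ) • (x + y)) = (2⁻¹ : ℝ) • (h x + h y) := by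
    intro x y μ hμ0 hμ1 hx hy
    obtain ⟨M, hM⟩ := exists_nat_gt (6 * ‖x - y‖ / μ)
    have hM' : (0 : ℝ) < M := lt_of_le_of_lt (by positivity) hM
    set a : ℕ → Z := fun i => x + ((i : ℝ) / (2 * M)) • (y - x) with ha
    have han : ∀ i, i ≤ 2 * M → ∀ z, ‖z - a i‖ ≤ μ → z ∈ K := by
      intro i hi z hz
      set t : ℝ := (i : ℝ) / (2 * M)
      have ht0 : 0 ≤ t := by positivity
      have ht1 : t ≤ 1 := by rw [div_le_one (by positivity)]; exact_mod_cast hi
      have := hK (hx (x + (z - a i)) (by rwa [add_sub_cancel_left]))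
        (hy (y + (z - a i)) (by rwa [add_sub_cancel_left])) (sub_nonneg.2 ht1) ht0
        (sub_add_cancel _ _)
      convert this using 1
      simp only [ha, t]; module
    have hstep : ∀ i, i + 2 ≤ 2 * M → h (a (i + 2)) - h (a (i + 1)) = h (a (i + 1)) - h (a i) := by
      intro i hi
      have hmid : a (i + 1) = (2⁻¹ : ℝ) • (a i + a (i + 2)) := by
        simp only [ha]; push_cast; module
      have hlt : 6 * ‖a i - a (i + 2)‖ ≤ μ := by
        rw [show a i - a (i + 2) = (1 / (M : ℝ)) • (x - y) by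
          simp only [ha]; push_cast; match_scalars <;> field_simp <;> ring, norm_smul,
          Real.norm_of_nonneg (by positivity)]
        rw [div_lt_iff₀ hμ0] at hM
        rw [one_div, ← mul_assoc, mul_comm 6, mul_assoc, inv_mul_le_iff₀ hM']
        linarith
      have hmar := han (i + 1) (by omega)
      rw [hmid] at hmar ⊢
      rw [hclose _ _ μ hμ0 hμ1 hmar hlt]
      module
    have harith : ∀ i, i ≤ 2 * M → h (a i) = h (a 0) + (i : ℝ) • (h (a 1) - h (a 0)) := by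
      intro i
      induction i using Nat.strong_induction_on with
      | _ i ih =>
        intro hi
        match i with
        | 0 => simp
        | 1 => simp
        | j + 2 =>
          have := hstep j hi
          rw [ih j (by omega) (by omega), ih (j + 1) (by omega) (by omega)] at this
          rw [eq_add_of_sub_eq this]
          push_cast
          module
    have e0 : a 0 = x := by simp [ha]
    have e2 : a (2 * M) = y := by simp [ha, hM'.ne']
    have em : a M = (2⁻¹ : ℝ) • (x + y) := by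
      simp only [ha]
      rw [show (M : ℝ) / (2 * M) = 2⁻¹ by field_simp]
      module
    rw [← em, harith M (by omega), ← e0, ← e2, harith (2 * M) le_rfl]
    push_cast
    module
  -- all midpoints
  have hmidc : ∀ x ∈ K, ∀ y ∈ K, h ((2⁻¹ : ℝ) • (x + y)) = (2⁻¹ : ℝ) • (h x + h y) := by
    intro x hx y hy
    refine eq_of_norm_sub_eq_zero (le_antisymm (le_of_forall_pos_le_add fun ε hε => ?_)
      (norm_nonneg _))
    set δ : ℝ := min (ε / 8) (1 / 2)
    have hδ0 : 0 < δ := lt_min (by linarith) (by norm_num)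
    have hδ1 : δ ≤ 1 / 2 := min_le_right _ _
    have hδ2 : δ ≤ ε / 8 := min_le_left _ _
    have hs : ∀ w ∈ K, (∀ z, ‖z - (1 - δ) • w‖ ≤ δ * ρ → z ∈ K) ∧ (1 - δ) • w ∈ K ∧
        ‖h w - h ((1 - δ) • w)‖ ≤ ε / 4 := by
      intro w hw
      have hin : (1 - δ) • w ∈ K := by
        simpa using hK hw h0 (show (0 : ℝ) ≤ 1 - δ by linarith) hδ0.le (sub_add_cancel _ _)
      refine ⟨fun z hz => ?_, hin, ?_⟩
      · have hu : δ⁻¹ • (z - (1 - δ) • w) ∈ K := hball _ (by
          rw [norm_smul, norm_inv, Real.norm_of_nonneg hδ0.le, inv_mul_le_iff₀ hδ0]; exact hz)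
        have := hK hw hu (show (0 : ℝ) ≤ 1 - δ by linarith) hδ0.le (sub_add_cancel _ _)
        rwa [smul_inv_smul₀ hδ0.ne', add_sub_cancel] at this
      · rw [hiso w hw _ hin, show w - (1 - δ) • w = δ • w by module, norm_smul,
          Real.norm_of_nonneg hδ0.le]
        exact (mul_le_mul_of_nonneg_left (hbd w hw) hδ0.le).trans (by linarith)
    obtain ⟨a1, -, a3⟩ := hs x hx
    obtain ⟨b1, -, b3⟩ := hs y hy
    obtain ⟨-, -, m3⟩ := hs _ (half x hx y hy)
    have em := hopen _ _ (δ * ρ) (by positivity) (by nlinarith) a1 b1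
    rw [show (2⁻¹ : ℝ) • ((1 - δ) • x + (1 - δ) • y) = (1 - δ) • ((2⁻¹ : ℝ) • (x + y)) by
      module] at em
    have eid : h ((2⁻¹ : ℝ) • (x + y)) - (2⁻¹ : ℝ) • (h x + h y) =
        (h ((2⁻¹ : ℝ) • (x + y)) - h ((1 - δ) • ((2⁻¹ : ℝ) • (x + y)))) -
          (2⁻¹ : ℝ) • ((h x - h ((1 - δ) • x)) + (h y - h ((1 - δ) • y))) := by rw [em]; module
    rw [eid]
    refine (norm_sub_le _ _).trans ?_
    rw [norm_smul, show ‖(2⁻¹ : ℝ)‖ = 2⁻¹ by norm_num, zero_add]
    linarith [norm_add_le (h x - h ((1 - δ) • x)) (h y - h ((1 - δ) • y))]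
  -- the linear extension
  set k : Z → Y := fun z => h z - h 0 with hk
  have hk2 : ∀ z ∈ K, k ((2⁻¹ : ℝ) • z) = (2⁻¹ : ℝ) • k z := fun z hz => by
    have := hmidc z hz 0 h0
    rw [add_zero] at this
    simp only [hk, this]
    module
  set P : ℕ → Z → Prop := fun j z => ((2 : ℝ) ^ j)⁻¹ • z ∈ K
  set S : ℕ → Z → Y := fun j z => (2 : ℝ) ^ j • k (((2 : ℝ) ^ j)⁻¹ • z) with hS
  have hsucc : ∀ j z, P j z → P (j + 1) z := fun j z hz => by
    have e : ((2 : ℝ) ^ (j + 1))⁻¹ • z = (2⁻¹ : ℝ) • (((2 : ℝ) ^ j)⁻¹ • z + 0) := by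
      rw [add_zero, smul_smul, pow_succ, mul_inv, mul_comm]
    simp only [P, e]
    exact half _ hz 0 h0
  have hup : ∀ (j i : ℕ) z, P j z → P (j + i) z := by
    intro j i z hz
    induction i with
    | zero => exact hz
    | succ i ih => exact hsucc _ z ih
  have hstab : ∀ (j i : ℕ) z, P j z → S (j + i) z = S j z := by
    intro j i z hz
    induction i with
    | zero => rfl
    | succ i ih =>
      rw [← ih, hS]
      simp only
      rw [← Nat.add_assoc, pow_succ, mul_inv, mul_comm (((2 : ℝ) ^ (j + i))⁻¹), mul_smul,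
        mul_smul, hk2 _ (hup j i z hz), smul_inv_smul₀ (two_ne_zero : (2 : ℝ) ≠ 0)]
  set N : Z → ℕ := fun z => ⌈‖z‖ / ρ⌉₊
  have hpow : ∀ z : Z, P (N z) z := fun z => hball _ (by
    rw [norm_smul, norm_inv, Real.norm_of_nonneg (by positivity), inv_mul_le_iff₀ (by positivity),
      ← div_le_iff₀ hρ0]
    exact (Nat.le_ceil _).trans (by exact_mod_cast Nat.lt_two_pow_self.le))
  set L : Z → Y := fun z => S (N z) z with hL
  have hLS : ∀ (j : ℕ) z, P j z → L z = S j z := by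
    intro j z hz
    simp only [hL]
    rw [← hstab j (N z) z hz, Nat.add_comm, hstab _ j z (hpow z)]
  have hadd : ∀ a b, L (a + b) = L a + L b := by
    intro a b
    set j := N a + N b with hj
    have ha : P j a := hup _ _ a (hpow a)
    have hb : P j b := by rw [hj, Nat.add_comm]; exact hup _ _ b (hpow b)
    have hab : P (j + 1) (a + b) := by
      have := half _ ha _ hb
      simp only [P]
      rwa [pow_succ, mul_inv, mul_comm, mul_smul, smul_add]
    rw [hLS (j + 1) (a + b) hab, hLS j a ha, hLS j b hb, hS]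
    simp only
    rw [pow_succ, mul_inv, mul_comm (((2 : ℝ) ^ j)⁻¹), mul_smul, mul_smul, smul_add]
    simp only [hk, hmidc _ ha _ hb]
    module
  have hLn : ∀ z, ‖L z‖ = ‖z‖ := fun z => by
    simp only [hL, hS, hk]
    rw [norm_smul, hiso _ (hpow z) 0 h0, sub_zero, ← norm_smul, smul_inv_smul₀ (by positivity)]
  let Lh : Z →+ Y :=
    { toFun := L, map_zero' := norm_eq_zero.1 (by rw [hLn, norm_zero]), map_add' := hadd }
  have hcont : Continuous Lh :=
    AddMonoidHomClass.continuous_of_bound Lh 1 fun z => by rw [one_mul]; exact (hLn z).le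
  refine ⟨(Lh.toRealLinearMap hcont).toLinearMap, fun z hz => ?_, fun z => ⟨?_, hLn z⟩, ?_⟩
  · change h z = h 0 + L z
    rw [hLS 0 z (by simpa [P] using hz), hS]
    simp [hk]
  · change φ (L z) = 0
    simp only [hL, hS, hk, map_smul, map_sub, hφ1 _ (hpow z), hφ1 0 h0, sub_self, smul_zero]
  · intro w hw
    set s : ℝ := ρ / (6 * (‖w‖ + 1)) with hs
    have hs0 : 0 < s := by positivity
    obtain ⟨z, hz, he⟩ := honto 0 ρ (h 0 + s • w) hρ1 (fun z hz => hball z (by simpa using hz))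
      (by simp [hφ1 0 h0, hw]) (by
        rw [add_sub_cancel_left, norm_smul, Real.norm_of_nonneg hs0.le, hs, div_mul_eq_mul_div,
          ← mul_div_assoc, div_le_iff₀ (by positivity)]
        linarith [hρ0.le])
    refine ⟨s⁻¹ • z, ?_⟩
    change L (s⁻¹ • z) = w
    have hlin := (Lh.toRealLinearMap hcont).map_smul s⁻¹ z
    change L (s⁻¹ • z) = s⁻¹ • L z at hlin
    rw [hlin, hLS 0 z (by simpa [P] using hz), hS]
    simp only [pow_zero, inv_one, one_smul, hk, he, add_sub_cancel_left, inv_smul_smul₀ hs0.ne']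

variable {F : X → Y} {G : Y → X}

theorem SphIso.neg (H : SphIso F G) : SphIso (fun x => F (-x)) (fun y => -(G y)) := by
  refine ⟨fun x hx => H.normF _ (by rwa [norm_neg]), fun y hy => by rw [norm_neg]; exact H.normG y hy,
    fun x hx => ?_, fun y hy => ?_, fun a b ha hb => ?_⟩
  · simp only [H.left _ ((norm_neg x).trans hx), neg_neg]
  · simp only [neg_neg]; exact H.right y hy
  · rw [H.iso _ _ ((norm_neg a).trans ha) ((norm_neg b).trans hb), ← norm_neg, neg_sub]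
    congr 1
    abel

/-- The image of the facet is convex. -/
theorem convex_facet (hP : Facet φ p) (H : SphIso F G) :
    Convex ℝ (F '' {c | ‖c‖ = 1 ∧ φ c = 1}) := by
  rintro _ ⟨u, ⟨hu, hu'⟩, rfl⟩ _ ⟨v, ⟨hv, hv'⟩, rfl⟩ a b ha hb hab
  obtain ⟨ρ, hρ0, hρ1, hρ⟩ := hP.margin
  have hnp : ‖-p‖ = 1 := by rw [norm_neg, hP.norm_p]
  obtain ⟨h1, h2⟩ := common_face (H.normF _ hnp) (by positivity : 0 < ρ / 3)
    (H.normF _ hu) (H.normF _ hv) (fun y hy hyq => by
    have hG := H.normG y hy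
    rw [← H.right y hy, H.iso _ _ hG hnp] at hyq
    have hd : φ (-(G y)) = 1 := hP.near (ε := ρ / 3) hP.one hρ (by rwa [norm_neg])
      (by rw [← norm_neg, neg_sub, sub_neg_eq_add, add_comm]; rw [sub_neg_eq_add] at hyq; exact hyq.le)
      (by linarith) (by linarith)
    rw [map_neg] at hd
    have hneg : φ (G y) = -1 := by linarith
    rw [← H.right y hy, H.iso _ _ hu hG, H.iso _ _ hv hG]
    exact ⟨hP.far hu hG hu' hneg, hP.far hv hG hv' hneg⟩) ha hb hab
  have hG := H.normG _ h1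
  rw [← H.right _ h1, H.iso _ _ hG hnp, sub_neg_eq_add] at h2
  exact ⟨_, ⟨hG, hP.of_far hG h2⟩, H.right _ h1⟩

/-- A functional equal to one on the image of the facet, to the norm near its interior points. -/
theorem facet_functional (hP : Facet φ p) (H : SphIso F G) :
    ∃ χ : Y →L[ℝ] ℝ, (∀ v, |χ v| ≤ ‖v‖) ∧ (∀ c, ‖c‖ = 1 → φ c = 1 → χ (F c) = 1) ∧
      ∀ c μ v, ‖c‖ = 1 → φ c = 1 → (∀ u, φ u = 1 → ‖u - c‖ ≤ μ → ‖u‖ = 1) →
        4 * ‖v - F c‖ ≤ 1 → 6 * ‖v - F c‖ ≤ μ →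
        χ v = ‖v‖ ∧ (‖v‖ = 1 → φ (G v) = 1) := by
  obtain ⟨ψ, u, hu1, hu2⟩ := geometric_hahn_banach_open (convex_ball (0 : Y) 1) isOpen_ball
    (convex_facet hP H) (Set.disjoint_left.2 fun y hy hy' => by
      obtain ⟨z, hz, rfl⟩ := hy'
      rw [mem_ball_zero_iff, H.normF _ hz.1] at hy
      exact lt_irrefl _ hy)
  have hu0 : 0 < u := by simpa using hu1 0 (by simp)
  have hle : ∀ v, ψ v ≤ u * ‖v‖ := by
    intro v
    refine le_of_forall_pos_le_add fun ε hε => ?_
    have hpos : 0 < ‖v‖ + ε / u := by positivity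
    have := hu1 ((‖v‖ + ε / u)⁻¹ • v) (by
      rw [mem_ball_zero_iff, norm_smul, norm_inv, Real.norm_of_nonneg hpos.le, inv_mul_lt_iff₀ hpos]
      have : 0 < ε / u := by positivity
      linarith)
    rw [map_smul, smul_eq_mul, inv_mul_lt_iff₀ hpos, add_mul, div_mul_cancel₀ _ hu0.ne'] at this
    linarith
  refine ⟨u⁻¹ • ψ, fun v => ?_, ?_⟩
  · change |u⁻¹ * ψ v| ≤ ‖v‖
    rw [abs_le]
    have h1 := hle v
    have h2 := hle (-v)
    rw [map_neg, norm_neg] at h2
    have hi : 0 < u⁻¹ := inv_pos.2 hu0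
    have e := mul_le_mul_of_nonneg_left h1 hi.le
    have e' := mul_le_mul_of_nonneg_left h2 hi.le
    rw [← mul_assoc, inv_mul_cancel₀ hu0.ne', one_mul] at e e'
    constructor <;> linarith
  have hone : ∀ c, ‖c‖ = 1 → φ c = 1 → (u⁻¹ • ψ) (F c) = 1 := by
    intro c hc hc'
    have h1 := hle (F c)
    rw [H.normF _ hc, mul_one] at h1
    change u⁻¹ * ψ (F c) = 1
    rw [le_antisymm h1 (hu2 _ ⟨c, ⟨hc, hc'⟩, rfl⟩), inv_mul_cancel₀ hu0.ne']
  refine ⟨hone, fun c μ v hc hc' hμ hv1 hv2 => ?_⟩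
  have hF := H.normF _ hc
  have e' := abs_norm_sub_norm_le v (F c)
  rw [hF] at e'
  have hne : 0 < ‖v‖ := by linarith [abs_le.1 e']
  set w := ‖v‖⁻¹ • v with hwdef
  have hw : ‖w‖ = 1 := by rw [norm_smul, norm_inv, norm_norm, inv_mul_cancel₀ hne.ne']
  have hwv : ‖w - v‖ = |‖v‖ - 1| := by
    rw [show w - v = (‖v‖⁻¹ - 1) • v by rw [sub_smul, one_smul], norm_smul, Real.norm_eq_abs]
    conv_lhs => arg 2; rw [← abs_of_pos hne]
    rw [← abs_mul, sub_mul, inv_mul_cancel₀ hne.ne', one_mul, abs_sub_comm]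
  have hG := H.normG w hw
  have hd : ‖G w - c‖ ≤ 2 * ‖v - F c‖ := by
    rw [← H.iso _ _ hG hc, H.right w hw]
    linarith [norm_sub_le_norm_sub_add_norm_sub w v (F c)]
  have g := hP.near hc' hμ hG hd (by linarith) (by linarith)
  have hone' := hone _ hG g
  rw [H.right w hw, map_smul, smul_eq_mul, inv_mul_eq_iff_eq_mul₀ hne.ne', mul_one] at hone'
  refine ⟨hone', fun h1 => ?_⟩
  rwa [hwdef, h1, inv_one, one_smul] at g

end Vale.Agent.P084.TwoLines
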