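import Vale.Agent.P084.TwoLines.BigFaces

/-!
P084: a sphere isometry out of a space with a large symmetric facet is linear.
-/

namespace Vale.Agent.P084.TwoLines

open Filter Topology Metric

variable {X Y : Type*} [NormedAddCommGroup X] [NormedSpace ℝ X]
  [NormedAddCommGroup Y] [NormedSpace ℝ Y]

/-- A point of norm `r` over a segment `±p`, read off on the facet. -/
theorem norm_tilt (p v : X) {τ r : ℝ} (hr : 0 < r) (hτ : |τ| = r)
    (hsym : ‖p - r⁻¹ • v‖ = 1 ↔ ‖p + r⁻¹ • v‖ = 1) :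
    ‖τ • p + v‖ = r ↔ ‖p + r⁻¹ • v‖ = 1 := by
  rcases (abs_eq hr.le).1 hτ with h | h <;> subst h
  · rw [show τ • p + v = τ • (p + τ⁻¹ • v) by rw [smul_add, smul_inv_smul₀ hr.ne'], norm_smul,
      Real.norm_of_nonneg hr.le, mul_eq_left₀ hr.ne']
  · rw [show (-r) • p + v = -(r • (p - r⁻¹ • v)) by
        rw [smul_sub, smul_inv_smul₀ hr.ne', neg_smul]; abel,
      norm_neg, norm_smul, Real.norm_of_nonneg hr.le, mul_eq_left₀ hr.ne', hsym]

/-- A bounded closed convex set and a homothetic copy of it centred at a point determine the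
point. -/
theorem lens_set {E : Type*} [NormedAddCommGroup E] [NormedSpace ℝ E] (K : Set E)
    (hK : Convex ℝ K) (hKc : IsClosed K) {B : ℝ} (hKb : ∀ k ∈ K, ‖k‖ ≤ B) {a a' : E} {r : ℝ}
    (hr : 0 < r) (hr1 : r ≤ 1) (hh : (1 + r)⁻¹ • a ∈ K)
    (hiff : ∀ c ∈ K, (r⁻¹ • (a - c) ∈ K ↔ r⁻¹ • (a' - c) ∈ K)) : a' = a := by
  by_contra hne
  set D := a' - a with hD
  have hD0 : 0 < ‖D‖ := norm_pos_iff.2 (sub_ne_zero.2 hne)
  set h : E := (1 + r)⁻¹ • a with hh'
  set I : Set ℝ := {l | h + l • D ∈ K} with hI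
  have h0 : (0 : ℝ) ∈ I := by simpa [hI] using hh
  have cond : ∀ l ∈ I, (-l / r ∈ I ↔ (1 - l) / r ∈ I) := by
    intro l hl
    have e1 : r⁻¹ • (a - (h + l • D)) = h + (-l / r) • D := by
      simp only [h]; match_scalars <;> field_simp <;> ring
    have e2 : r⁻¹ • (a' - (h + l • D)) = h + ((1 - l) / r) • D := by
      rw [show a' = a + D by rw [hD]; abel]
      simp only [h]; match_scalars <;> field_simp <;> ring
    have := hiff (h + l • D) hl
    rwa [e1, e2] at this
  have hconv : Convex ℝ I := by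
    intro x hx y hy s t hs ht hst
    change h + (s • x + t • y) • D ∈ K
    rw [show h + (s • x + t • y) • D = (s + t) • h + (s • x + t • y) • D by rw [hst, one_smul],
      show (s + t) • h + (s • x + t • y) • D = s • (h + x • D) + t • (h + y • D) by
        simp only [smul_eq_mul]; module]
    exact hK hx hy hs ht hst
  have hbnd : ∀ l ∈ I, |l| ≤ (B + B) / ‖D‖ := by
    intro l hl
    rw [le_div_iff₀ hD0, ← Real.norm_eq_abs, ← norm_smul]
    calc ‖l • D‖ = ‖(h + l • D) - h‖ := by rw [add_sub_cancel_left]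
      _ ≤ _ := (norm_sub_le _ _).trans (add_le_add (hKb _ hl) (hKb _ hh))
  have hIc : IsClosed I := hKc.preimage (by fun_prop)
  have hab : BddAbove I := ⟨(B + B) / ‖D‖, fun l hl => (abs_le.1 (hbnd l hl)).2⟩
  have hbb : BddBelow I := ⟨-((B + B) / ‖D‖), fun l hl => (abs_le.1 (hbnd l hl)).1⟩
  set β := sSup I
  set γ := sInf I
  have hβ : β ∈ I := hIc.csSup_mem ⟨0, h0⟩ hab
  have hγ : γ ∈ I := hIc.csInf_mem ⟨0, h0⟩ hbb
  have hle : ∀ l ∈ I, γ ≤ l ∧ l ≤ β := fun l hl => ⟨csInf_le hbb hl, le_csSup hab hl⟩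
  have hmem : ∀ l, γ ≤ l → l ≤ β → l ∈ I := fun l h1 h2 =>
    hconv.ordConnected.out hγ hβ ⟨h1, h2⟩
  have hγ0 : γ ≤ 0 := (hle 0 h0).1
  have hβ0 : 0 ≤ β := (hle 0 h0).2
  have top : β ≤ -(r * γ) := by
    by_contra hc
    push Not at hc
    set l := min β (1 - r * γ) with hl
    have h1 : l ∈ I := hmem l (le_min (by linarith) (by nlinarith)) (min_le_left _ _)
    have h1' := hmem (-(r * γ)) (by nlinarith) hc.le
    have h2 : (1 - -(r * γ)) / r ∈ I := (cond _ h1').1 (by
      rw [show -(-(r * γ)) / r = γ by field_simp]; exact hγ)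
    have h3 : (1 - l) / r ∈ I := by
      refine hconv.ordConnected.out hγ h2 ⟨?_, ?_⟩
      · rw [le_div_iff₀ hr]; linarith [min_le_right β (1 - r * γ)]
      · refine div_le_div_of_nonneg_right ?_ hr.le
        linarith [le_min (show -(r * γ) ≤ β from hc.le) (show -(r * γ) ≤ 1 - r * γ by linarith)]
    have h4 := (hle _ ((cond l h1).2 h3)).1
    rw [le_div_iff₀ hr] at h4
    rcases min_choice β (1 - r * γ) with hm | hm <;> rw [hl, hm] at h4 <;> linarith
  have bot : 1 - r * β ≤ γ := by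
    by_contra hc
    push Not at hc
    set l := max γ (-(r * β))
    have h1 : l ∈ I := hmem l (le_max_left _ _) (max_le (by linarith) (by nlinarith))
    have hup := (hle _ ((cond l h1).1 ?_)).2
    · rw [div_le_iff₀ hr] at hup
      rcases max_choice γ (-(r * β)) with hm | hm <;> simp only [l, hm] at hup <;> linarith
    · refine hmem _ ?_ ?_
      · rw [le_div_iff₀ hr]
        nlinarith [show l ≤ 0 from max_le hγ0 (by nlinarith)]
      · rw [div_le_iff₀ hr]
        linarith [le_max_right γ (-(r * β))]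
  nlinarith

variable {φ : X →L[ℝ] ℝ} {p : X} {F : X → Y} {G : Y → X}

/-- The two opposite facets of the image, with their affine parametrizations. -/
theorem exists_facets (hP : Facet φ p) (H : SphIso F G) :
    ∃ (χ : Y →L[ℝ] ℝ) (L M : LinearMap.ker φ.toLinearMap →ₗ[ℝ] Y),
      (∀ v, |χ v| ≤ ‖v‖) ∧ χ (F p) = 1 ∧
      (∀ z : LinearMap.ker φ.toLinearMap,
        ‖p + (z : X)‖ = 1 → F (p + z) = F p + L z ∧ F (-p + z) = -F p + M z) ∧
      (∀ z, χ (L z) = 0 ∧ χ (M z) = 0) ∧
      (∀ w, χ w = 0 → (∃ z, L z = w) ∧ ∃ z, M z = w) ∧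
      ∀ z : LinearMap.ker φ.toLinearMap, (‖F p + L z‖ = 1 ↔ ‖p + (z : X)‖ = 1) ∧ (‖F p + M z‖ = 1 ↔ ‖p + (z : X)‖ = 1) := by
  set Z := LinearMap.ker φ.toLinearMap
  have hk : ∀ z : Z, φ z = 0 := fun z => z.2
  obtain ⟨ρ, hρ0, hρ1, hρ⟩ := hP.margin
  have hup : ∀ z : Z, φ (p + z) = 1 := fun z => by simp [hP.one, hk z]
  have hdn : ∀ z : Z, φ (-p + z) = -1 := fun z => by simp [hP.one, hk z]
  set K : Set Z := {z | ‖p + (z : X)‖ ≤ 1}
  have hK1 : ∀ z, z ∈ K ↔ ‖p + (z : X)‖ = 1 := fun z => by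
    refine ⟨fun h => le_antisymm h ?_, le_of_eq⟩
    have := hP.le (p + z)
    rwa [hup, abs_one] at this
  have hKneg : ∀ z ∈ K, -z ∈ K := fun z hz => (hK1 _).2 (by
    simpa [sub_eq_add_neg] using hP.symm z (hk z) ((hK1 z).1 hz))
  have hKconv : Convex ℝ K := by
    intro x hx y hy a b ha hb hab
    change ‖p + ((a • x + b • y : Z) : X)‖ ≤ 1
    rw [show p + ((a • x + b • y : Z) : X) = a • (p + x) + b • (p + y) by
      push_cast; rw [smul_add, smul_add, add_add_add_comm, ← add_smul, hab, one_smul]]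
    refine (norm_add_le _ _).trans ?_
    rw [norm_smul, norm_smul, Real.norm_of_nonneg ha, Real.norm_of_nonneg hb]
    calc a * ‖p + x‖ + b * ‖p + y‖ ≤ a * 1 + b * 1 :=
          add_le_add (mul_le_mul_of_nonneg_left hx ha) (mul_le_mul_of_nonneg_left hy hb)
      _ = 1 := by linarith
  have hball : ∀ z : Z, ‖z‖ ≤ ρ → z ∈ K := fun z hz =>
    (hρ _ (hup z) (by rwa [add_sub_cancel_left])).le
  have hbd : ∀ z ∈ K, ‖z‖ ≤ 2 := fun z hz => by
    have := norm_sub_le (p + (z : X)) p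
    rw [add_sub_cancel_left, (hK1 z).1 hz, hP.norm_p] at this
    change ‖(z : X)‖ ≤ 2; linarith
  -- each facet
  have body : ∀ (F : X → Y) (G : Y → X), SphIso F G → ∃ (χ : Y →L[ℝ] ℝ) (L : Z →ₗ[ℝ] Y),
      (∀ v, |χ v| ≤ ‖v‖) ∧ (∀ c, ‖c‖ = 1 → φ c = 1 → χ (F c) = 1) ∧
      (∀ v, 4 * ‖v - F p‖ ≤ 1 → 6 * ‖v - F p‖ ≤ ρ → χ v = ‖v‖) ∧
      (∀ z : Z, z ∈ K → F (p + z) = F p + L z) ∧ (∀ z, χ (L z) = 0 ∧ ‖L z‖ = ‖z‖) ∧
      ∀ w, χ w = 0 → ∃ z, L z = w := by
    intro F G H
    obtain ⟨χ, hχn, hχ1, hχloc⟩ := facet_functional hP H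
    obtain ⟨L, hL1, hL2, hL3⟩ := affine_on K hKconv hρ0 hρ1 hball hbd (fun z => F (p + z)) χ
      (fun a ha b hb => by
        rw [H.iso _ _ ((hK1 a).1 ha) ((hK1 b).1 hb), add_sub_add_left_eq_sub]; rfl)
      (fun z hz => hχ1 _ ((hK1 z).1 hz) (hup z))
      (fun m μ w hμ1 hμ hw hwd => by
        have hmK : m ∈ K := hμ m (by simpa using (by linarith [norm_nonneg (w - F (p + m))] : 0 ≤ μ))
        have hmar : ∀ u, φ u = 1 → ‖u - (p + m)‖ ≤ μ → ‖u‖ = 1 := fun u hu hd => by
          have hz : φ (u - p) = 0 := by rw [map_sub, hu, hP.one, sub_self]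
          have := (hK1 ⟨u - p, hz⟩).1 (hμ ⟨u - p, hz⟩ (by
            change ‖(u - p) - (m : X)‖ ≤ μ
            rwa [sub_sub]))
          simpa using this
        obtain ⟨g1, g2⟩ := hχloc _ μ w ((hK1 m).1 hmK) (hup m) hmar (by linarith) hwd
        have hwn : ‖w‖ = 1 := g1.symm.trans hw
        have hz : φ (G w - p) = 0 := by rw [map_sub, g2 hwn, hP.one, sub_self]
        refine ⟨⟨G w - p, hz⟩, (hK1 _).2 ?_, ?_⟩
        · simpa using H.normG w hwn
        · simpa using H.right w hwn)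
    refine ⟨χ, L, hχn, hχ1, fun v h4 h6 => (hχloc p ρ v hP.norm_p hP.one hρ h4 h6).1,
      fun z hz => ?_, hL2, hL3⟩
    simpa using hL1 z hz
  obtain ⟨χ, L, hχn, hχ1, hχloc, hL1, hL2, hL3⟩ := body F G H
  obtain ⟨χ', L', hχn', hχ1', hχloc', hL1', hL2', hL3'⟩ := body _ _ H.neg
  set p' := F p with hp'
  set q := F (-p) with hq
  have hnp : ‖-p‖ = 1 := by rw [norm_neg, hP.norm_p]
  have hp1 : χ p' = 1 := hχ1 p hP.norm_p hP.one
  have hq1 : χ' q = 1 := hχ1' p hP.norm_p hP.one
  -- opposite functionals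
  have hopp : χ' = -χ := by
    have hpq : ‖p' - q‖ = 2 := by
      rw [hp', hq, H.iso _ _ hP.norm_p hnp, sub_neg_eq_add, ← two_smul ℝ p, norm_smul, hP.norm_p]
      norm_num
    obtain ⟨ψ, hψ1, hψ2⟩ := exists_dual_vector'' ℝ (p' - q)
    have hle : ∀ w, |ψ w| ≤ ‖w‖ := fun w => by
      have := ψ.le_of_opNorm_le hψ1 w
      rwa [one_mul, Real.norm_eq_abs] at this
    have e : ψ p' - ψ q = 2 := by rw [← map_sub, hψ2, hpq]; norm_num
    have e1 := abs_le.1 ((hle p').trans (H.normF _ hP.norm_p).le)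
    have e2 := abs_le.1 ((hle q).trans (H.normF _ hnp).le)
    have eq_of : ∀ (x : Y) (γ δ : Y →L[ℝ] ℝ), γ x = δ x →
        (∀ v, ‖v - x‖ ≤ ρ / 6 → γ v ≤ δ v) → γ = δ := by
      intro x γ δ hx hle'
      ext v
      set t : ℝ := ρ / (6 * (‖v‖ + 1)) with ht
      have ht0 : 0 < t := by positivity
      have hts : ‖t • v‖ ≤ ρ / 6 := by
        rw [norm_smul, Real.norm_of_nonneg ht0.le, ht, div_mul_eq_mul_div,
          div_le_div_iff₀ (by positivity) (by norm_num)]
        linarith [mul_nonneg hρ0.le (norm_nonneg v)]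
      have a1 := hle' (x + t • v) (by rwa [add_sub_cancel_left])
      have a2 := hle' (x - t • v) (by rwa [sub_sub_cancel_left, norm_neg])
      simp only [map_add, map_sub, map_smul, smul_eq_mul, hx] at a1 a2
      exact le_antisymm (le_of_mul_le_mul_left (by linarith) ht0)
        (le_of_mul_le_mul_left (by linarith) ht0)
    have E1 : ψ = χ := eq_of p' ψ χ (by rw [hp1]; linarith) fun v hv => by
      rw [hχloc v (by linarith) (by linarith)]
      exact (le_abs_self _).trans (hle v)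
    have E2 : -ψ = χ' := eq_of q (-ψ) χ' (by rw [hq1]; change -ψ q = 1; linarith) fun v hv => by
      rw [hχloc' v (by linarith) (by linarith)]
      exact (neg_le_abs _).trans (hle v)
    rw [← E2, E1]
  have hφq : χ q = -1 := by
    have := DFunLike.congr_fun hopp q
    rw [hq1] at this; change (1 : ℝ) = -χ q at this; linarith
  have hker : ∀ w, χ' w = 0 ↔ χ w = 0 := fun w => by rw [hopp]; simp
  -- level sets
  have hlev : ∀ y, ‖y‖ = 1 → (χ y = 1 → φ (G y) = 1) ∧ (χ y = -1 → φ (G y) = -1) := by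
    intro y hy
    have hG := H.normG y hy
    have two : ∀ x, ‖x‖ = 1 → |χ (y - F x)| = 2 → ‖G y - x‖ = 2 := fun x hx hd => by
      refine le_antisymm ((norm_sub_le _ _).trans (by linarith)) ?_
      rw [← H.iso _ _ hG hx, H.right y hy]
      exact hd ▸ hχn _
    refine ⟨fun h => ?_, fun h => ?_⟩
    · refine hP.of_far hG ?_
      rw [← sub_neg_eq_add]
      exact two _ hnp (by rw [map_sub, h, hφq]; norm_num)
    · have := hP.of_far (c := -(G y)) (by rwa [norm_neg]) (by
        rw [← norm_neg, neg_add, neg_neg, ← sub_eq_add_neg]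
        exact two _ hP.norm_p (by rw [map_sub, h, hp1]; norm_num))
      rw [map_neg] at this; linarith
  set M : Z →ₗ[ℝ] Y := -L'
  have hM1 : ∀ z : Z, z ∈ K → F (-p + z) = q + M z := fun z hz => by
    have := hL1' (-z) (hKneg z hz)
    simp only [Submodule.coe_neg, map_neg, neg_add, neg_neg] at this
    exact this
  have hinv1 : ∀ y, ‖y‖ = 1 → χ y = 1 → ∃ z ∈ K, y = p' + L z := fun y hy h => by
    have hz : φ (G y - p) = 0 := by rw [map_sub, (hlev y hy).1 h, hP.one, sub_self]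
    have hzK : (⟨G y - p, hz⟩ : Z) ∈ K := (hK1 _).2 (by simpa using H.normG y hy)
    refine ⟨_, hzK, ?_⟩
    rw [← hL1 _ hzK]
    simpa using (H.right y hy).symm
  have hinv2 : ∀ y, ‖y‖ = 1 → χ y = -1 → ∃ z ∈ K, y = q + M z := fun y hy h => by
    have hz : φ (G y + p) = 0 := by rw [map_add, (hlev y hy).2 h, hP.one]; norm_num
    have hzK : (⟨G y + p, hz⟩ : Z) ∈ K := by
      have := hKneg ⟨-(G y + p), by change φ (-(G y + p)) = 0; rw [map_neg, hz, neg_zero]⟩
        ((hK1 _).2 (by simpa using H.normG y hy))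
      convert this using 1
      ext
      simp
    refine ⟨_, hzK, ?_⟩
    rw [← hM1 _ hzK]
    simpa using (H.right y hy).symm
  have hLχ : ∀ z, χ (L z) = 0 := fun z => (hL2 z).1
  have hMχ : ∀ z, χ (M z) = 0 := fun z => by simp [M, (hker _).1 (hL2' z).1]
  have hMn : ∀ z, ‖M z‖ = ‖z‖ := fun z => by simp [M, (hL2' z).2]
  -- the centres are opposite
  have hqp : q = -p' := by
    set d := q + p' with hd
    have hshift : ∀ z ∈ K, ∃ z' ∈ K, L z' = L z + (2 : ℝ) • d := by
      intro z hz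
      have hy : ‖p' + L z‖ = 1 := by rw [← hL1 z hz]; exact H.normF _ ((hK1 z).1 hz)
      obtain ⟨z₃, hz₃, e₃⟩ := hinv2 (-(p' + L z)) (by rwa [norm_neg])
        (by simp [hp1, hLχ])
      have hy3 : ‖q + M (-z₃)‖ = 1 := by
        rw [← hM1 _ (hKneg _ hz₃)]
        refine H.normF _ ?_
        rw [← norm_neg, neg_add, neg_neg, ← Submodule.coe_neg, neg_neg]
        exact (hK1 _).1 hz₃
      obtain ⟨z₂, hz₂, e₂⟩ := hinv1 (-(q + M (-z₃))) (by rwa [norm_neg]) (by simp [hφq, hMχ])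
      refine ⟨-z₂, hKneg _ hz₂, ?_⟩
      rw [map_neg] at e₂ ⊢
      have e₄ : L z₂ = -(q + -M z₃) - p' := eq_sub_of_add_eq' e₂.symm
      have e₅ : M z₃ = -(p' + L z) - q := eq_sub_of_add_eq' e₃.symm
      rw [e₄, e₅, hd]
      module
    have hiter : ∀ n : ℕ, ∃ z ∈ K, L z = (2 * n : ℝ) • d := by
      intro n
      induction n with
      | zero => exact ⟨0, hball 0 (by simpa using hρ0.le), by simp⟩
      | succ n ih =>
        obtain ⟨z, hz, e⟩ := ih
        obtain ⟨z', hz', e'⟩ := hshift z hz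
        exact ⟨z', hz', by rw [e', e]; push_cast; module⟩
    by_contra hne
    have hd0 : 0 < ‖d‖ := norm_pos_iff.2 fun h => hne (eq_neg_of_add_eq_zero_left (hd ▸ h))
    obtain ⟨n, hn⟩ := exists_nat_gt (1 / ‖d‖)
    obtain ⟨z, hz, e⟩ := hiter n
    have := hbd z hz
    rw [← (hL2 z).2, e, norm_smul, Real.norm_of_nonneg (by positivity)] at this
    rw [div_lt_iff₀ hd0] at hn
    linarith
  refine ⟨χ, L, M, hχn, hp1, fun z hz => ⟨hL1 z ((hK1 z).2 hz), hqp ▸ hM1 z ((hK1 z).2 hz)⟩,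
    fun z => ⟨hLχ z, hMχ z⟩, fun w hw => ⟨hL3 w hw, ?_⟩,
    fun z => ⟨⟨fun h => ?_, fun h => ?_⟩, ⟨fun h => ?_, fun h => ?_⟩⟩⟩
  · obtain ⟨z, hz⟩ := hL3' w ((hker w).2 hw)
    exact ⟨-z, by simp [M, hz]⟩
  · obtain ⟨z', hz', e⟩ := hinv1 _ h (by simp [hp1, hLχ])
    have : z = z' := by
      have := (hL2 (z - z')).2
      rw [map_sub, add_left_cancel e, sub_self, norm_zero] at this
      exact sub_eq_zero.1 (norm_eq_zero.1 this.symm)
    exact this ▸ (hK1 z').1 hz'
  · rw [← hL1 z ((hK1 z).2 h)]; exact H.normF _ h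
  · obtain ⟨z', hz', e⟩ := hinv2 (-(p' + M z)) (by rwa [norm_neg]) (by simp [hp1, hMχ])
    rw [hqp, neg_add] at e
    have : -z = z' := by
      have := hMn (-z - z')
      rw [map_sub, map_neg, add_left_cancel e, sub_self, norm_zero] at this
      exact sub_eq_zero.1 (norm_eq_zero.1 this.symm)
    exact neg_neg z ▸ (hK1 _).1 (hKneg _ (this ▸ hz' : -z ∈ K))
  · have hnz := hKneg z ((hK1 z).2 h)
    rw [← norm_neg, neg_add, ← map_neg, ← hqp, ← hM1 _ hnz]
    refine H.normF _ ?_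
    rw [← norm_neg, neg_add, neg_neg, Submodule.coe_neg, neg_neg]
    exact h

/-- A sphere isometry out of a space with a large symmetric facet is linear. -/
theorem exists_linear_big (hP : Facet φ p) (H : SphIso F G) :
    ∃ T : X →ₗ[ℝ] Y, (∀ x, ‖x‖ = 1 → F x = T x) ∧ Function.Surjective T := by
  let Z := LinearMap.ker φ.toLinearMap
  obtain ⟨χ, L, M, hχn, hχp, hLf, hLk, hLs, hnorm⟩ := exists_facets hP H
  set p' := F p
  have hk : ∀ z : Z, φ z = 0 := fun z => z.2
  let hor : X →ₗ[ℝ] Z := (LinearMap.id - φ.toLinearMap.smulRight p).codRestrict Z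
    (fun x => by simp [Z, hP.one])
  have hhor : ∀ x, (hor x : X) = x - φ x • p := fun x => rfl
  set K : Set Z := {z | ‖p + (z : X)‖ ≤ 1}
  have hK1 : ∀ z, z ∈ K ↔ ‖p + (z : X)‖ = 1 := fun z => by
    refine ⟨fun h => le_antisymm h ?_, le_of_eq⟩
    have := hP.le (p + z)
    rwa [map_add, hP.one, hk, add_zero, abs_one] at this
  have hKconv : Convex ℝ K := by
    intro x hx y hy a b ha hb hab
    change ‖p + ((a • x + b • y : Z) : X)‖ ≤ 1
    rw [show p + ((a • x + b • y : Z) : X) = a • (p + x) + b • (p + y) by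
      push_cast; rw [smul_add, smul_add, add_add_add_comm, ← add_smul, hab, one_smul]]
    refine (norm_add_le _ _).trans ?_
    rw [norm_smul, norm_smul, Real.norm_of_nonneg ha, Real.norm_of_nonneg hb]
    calc a * ‖p + x‖ + b * ‖p + y‖ ≤ a * 1 + b * 1 :=
          add_le_add (mul_le_mul_of_nonneg_left hx ha) (mul_le_mul_of_nonneg_left hy hb)
      _ = 1 := by linarith
  have hKc : IsClosed K := isClosed_le (by fun_prop) continuous_const
  have hKb : ∀ k ∈ K, ‖k‖ ≤ 2 := fun z hz => by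
    have := norm_sub_le (p + (z : X)) p
    rw [add_sub_cancel_left, (hK1 z).1 hz, hP.norm_p] at this
    change ‖(z : X)‖ ≤ 2; linarith
  have hsym : ∀ z : Z, ‖p - (z : X)‖ = 1 ↔ ‖p + (z : X)‖ = 1 := fun z => by
    refine ⟨fun h => ?_, hP.symm z (hk z)⟩
    simpa using hP.symm (-(z : X)) (by simp [hk]) (by simpa [← sub_eq_add_neg] using h)
  have h0 : (0 : Z) ∈ K := (hK1 0).2 (by simpa using hP.norm_p)
  -- horizontal parts
  have hcov : ∀ x, ‖x‖ = 1 → ∀ δ, 1 - |φ x| ≤ δ → (1 + δ)⁻¹ • hor x ∈ K := by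
    intro x hx δ hδ
    have hbase : (2 - |φ x|)⁻¹ • hor x ∈ K := (hK1 _).2 (hP.cover x hx)
    have hpos : 0 < 2 - |φ x| := by linarith [hx ▸ hP.le x]
    set θ := (2 - |φ x|) / (1 + δ)
    have hθ0 : 0 ≤ θ := div_nonneg hpos.le (by linarith)
    have hθ1 : θ ≤ 1 := (div_le_one (by linarith)).2 (by linarith)
    have := hKconv hbase h0 hθ0 (sub_nonneg.2 hθ1) (add_sub_cancel _ _)
    rwa [smul_zero, add_zero, smul_smul, div_mul_eq_mul_div, mul_inv_cancel₀ hpos.ne',
      one_div] at this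
  have habs : ∀ x, ‖x‖ = 1 → -1 ≤ φ x ∧ φ x ≤ 1 := fun x hx => abs_le.1 (hx ▸ hP.le x)
  -- scalar coordinate
  have scalar : ∀ x, ‖x‖ = 1 → χ (F x) = φ x := by
    intro x hx
    obtain ⟨hlo, hhi⟩ := habs x hx
    have side : ∀ δ, 1 - |φ x| ≤ δ → ∀ s : ℝ, |s| = 1 → δ = 1 - s * φ x →
        1 - s * χ (F x) ≤ δ := by
      intro δ hδ s hs hds
      have hδ0 : 0 ≤ δ := by
        rcases (abs_eq zero_le_one).1 hs with rfl | rfl <;> linarith
      set w := (1 + δ)⁻¹ • hor x with hw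
      have hwn : ‖p + (w : X)‖ = 1 := (hK1 _).1 (hcov x hx δ hδ)
      have hcn : ‖s • p + (w : X)‖ = 1 := (norm_tilt p _ one_pos hs (by
        simpa using hsym w)).2 (by simpa using hwn)
      have hval : χ (F (s • p + w)) = s := by
        rcases (abs_eq zero_le_one).1 hs with rfl | rfl
        · rw [one_smul, (hLf w hwn).1, map_add, hχp, (hLk w).1, add_zero]
        · rw [neg_smul, one_smul, (hLf w hwn).2, map_add, map_neg, hχp, (hLk w).2, add_zero]
      have e := hχn (F (s • p + w) - F x)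
      rw [map_sub, hval, H.iso _ _ hcn hx] at e
      have hx' : x = φ x • p + (hor x : X) := by rw [hhor]; abel
      have hw' : (hor x : X) = (1 + δ) • (w : X) := by
        rw [hw, Submodule.coe_smul, smul_inv_smul₀ (by linarith)]
      have hdist : ‖(s • p + (w : X)) - x‖ ≤ δ := by
        rcases hδ0.lt_or_eq with hd | hd
        · refine le_of_eq ?_
          rw [← norm_neg, show -((s • p + (w : X)) - x) = (φ x - s) • p + δ • (w : X) by
            conv_lhs => rw [hx', hw']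
            module,
            norm_tilt p _ hd (by
              rw [hds]; rcases (abs_eq zero_le_one).1 hs with rfl | rfl
              · rw [abs_of_nonpos (by linarith)]; ring
              · rw [abs_of_nonneg (by linarith)]; ring)
              (by rw [inv_smul_smul₀ hd.ne']; exact hsym w), inv_smul_smul₀ hd.ne']
          exact hwn
        · have : φ x = s := by
            rcases (abs_eq zero_le_one).1 hs with rfl | rfl <;> linarith
          rw [hx', hw', this, ← hd, add_zero, one_smul, sub_self, norm_zero]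
      rcases (abs_eq zero_le_one).1 hs with rfl | rfl
      · linarith [le_abs_self ((1 : ℝ) - χ (F x))]
      · linarith [neg_abs_le ((-1 : ℝ) - χ (F x))]
    have h1 := side (1 - φ x) (by linarith [le_abs_self (φ x)]) 1 abs_one (by ring)
    have h2 := side (1 + φ x) (by linarith [neg_abs_le (φ x)]) (-1) (by norm_num) (by ring)
    linarith
  -- one side at a time
  have key : ∀ (s : ℝ), |s| = 1 → ∀ R : Z →ₗ[ℝ] Y,
      (∀ z : Z, ‖p + (z : X)‖ = 1 → F (s • p + z) = s • p' + R z) → (∀ z, χ (R z) = 0) →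
      (∀ w, χ w = 0 → ∃ z, R z = w) → (∀ z : Z, ‖p' + R z‖ = 1 ↔ ‖p + (z : X)‖ = 1) →
      ∀ x, ‖x‖ = 1 → 0 ≤ s * φ x → F x = φ x • p' + R (hor x) := by
    intro s hs R hRf hRk hRs hRn x hx hsx
    obtain ⟨hlo, hhi⟩ := habs x hx
    set r := |φ x - s| with hr
    have hrt : r = 1 - |φ x| := by
      rcases (abs_eq zero_le_one).1 hs with rfl | rfl
      · rw [hr, abs_of_nonpos (by linarith), abs_of_nonneg (show (0 : ℝ) ≤ φ x by linarith)]; ring
      · rw [hr, abs_of_nonneg (by linarith), abs_of_nonpos (show φ x ≤ 0 by linarith)]; ring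
    have hx' : x = φ x • p + (hor x : X) := by rw [hhor]; abel
    rcases (show 0 ≤ r from abs_nonneg _).lt_or_eq with hr0 | hr0
    swap
    · have hts : φ x = s := sub_eq_zero.1 (abs_eq_zero.1 hr0.symm)
      have hn : ‖p + (hor x : X)‖ = 1 := by
        have := (norm_tilt p (hor x : X) one_pos hs (by simpa using hsym (hor x))).1
          (by rw [← hts, ← hx']; exact hx)
        simpa using this
      conv_lhs => rw [hx', hts]
      rw [hRf _ hn, hts]
    obtain ⟨a', ha'⟩ := hRs (F x - φ x • p') (by simp [scalar x hx, hχp])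
    have hy : F x = φ x • p' + R a' := by rw [ha']; abel
    suffices haa : a' = hor x by rw [hy, haa]
    refine lens_set K hKconv hKc hKb hr0 (by linarith [abs_nonneg (φ x)])
      (hcov x hx r hrt.ge) fun c hc => ?_
    have hcn : ‖p + (c : X)‖ = 1 := (hK1 c).1 hc
    have hcs : ‖s • p + (c : X)‖ = 1 :=
      (norm_tilt p _ one_pos hs (by simpa using hsym c)).2 (by simpa using hcn)
    have e1 : ‖x - (s • p + (c : X))‖ = r ↔ r⁻¹ • (hor x - c) ∈ K := by
      rw [show x - (s • p + (c : X)) = (φ x - s) • p + ((hor x - c : Z) : X) by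
        rw [Submodule.coe_sub]; conv_lhs => rw [hx']
        module, norm_tilt p _ hr0 hr.symm (by
          have := hsym (r⁻¹ • (hor x - c)); simpa using this), hK1]
      rfl
    have e2 : ‖F x - F (s • p + (c : X))‖ = r ↔ r⁻¹ • (a' - c) ∈ K := by
      rw [show F x - F (s • p + (c : X)) = (φ x - s) • p' + R (a' - c) by
        rw [hy, hRf c hcn, map_sub]; module, norm_tilt p' _ hr0 hr.symm (by
          rw [sub_eq_add_neg, ← map_smul, ← map_neg, hRn, hRn, Submodule.coe_neg,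
            ← sub_eq_add_neg]
          exact hsym _), ← map_smul, hRn, hK1]
    rw [← e1, ← e2, H.iso _ _ hx hcs]
  have keyL := key 1 abs_one L (fun z hz => by rw [one_smul, one_smul]; exact (hLf z hz).1)
    (fun z => (hLk z).1) (fun w hw => (hLs w hw).1) (fun z => (hnorm z).1)
  have keyM := key (-1) (by norm_num) M
    (fun z hz => by rw [neg_smul, one_smul, neg_smul, one_smul]; exact (hLf z hz).2)
    (fun z => (hLk z).2) (fun w hw => (hLs w hw).2) (fun z => (hnorm z).2)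
  have hML : ∀ z, M z = L z := by
    intro z
    rcases eq_or_ne z 0 with rfl | hz
    · simp
    have hn : (0 : ℝ) < ‖z‖ := norm_pos_iff.2 hz
    set u : Z := ‖z‖⁻¹ • z with hu
    have hu1 : ‖(u : X)‖ = 1 := by
      change ‖u‖ = 1; rw [hu, norm_smul, norm_inv, norm_norm, inv_mul_cancel₀ hn.ne']
    have hhu : hor (u : X) = u := Subtype.ext (by rw [hhor, hk, zero_smul, sub_zero])
    have e := (keyM _ hu1 (by simp [hk])).symm.trans (keyL _ hu1 (by simp [hk]))
    rw [add_right_inj, hhu, hu, map_smul, map_smul] at e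
    exact smul_right_injective Y (inv_ne_zero hn.ne') e
  let T : X →ₗ[ℝ] Y := φ.toLinearMap.smulRight p' + L.comp hor
  have hT : ∀ x, T x = φ x • p' + L (hor x) := fun x => rfl
  refine ⟨T, fun x hx => ?_, fun y => ?_⟩
  · rcases le_total 0 (φ x) with h | h
    · rw [hT]; exact keyL x hx (by linarith)
    · rw [hT, ← hML]; exact keyM x hx (by linarith)
  · obtain ⟨z, hz⟩ := (hLs (y - χ y • p') (by simp [hχp])).1
    refine ⟨χ y • p + (z : X), ?_⟩
    have e : φ (χ y • p + (z : X)) = χ y := by simp [hP.one, hk]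
    have eh : hor (χ y • p + (z : X)) = z := Subtype.ext (by rw [hhor, e, add_sub_cancel_left])
    rw [hT, e, eh, hz, add_sub_cancel]

end Vale.Agent.P084.TwoLines
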