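import Vale.Agent.P084.Norm

/-!
P084: sphere isometries, centres of symmetric sets, and common faces of far-apart points.
-/

namespace Vale.Agent.P084.TwoLines

open Filter Topology Metric MeasureTheory

variable {Z : Type*} [NormedAddCommGroup Z] [NormedSpace ℝ Z]
variable {W : Type*} [NormedAddCommGroup W] [NormedSpace ℝ W]
variable {X Y : Type*} [NormedAddCommGroup X] [NormedSpace ℝ X]
  [NormedAddCommGroup Y] [NormedSpace ℝ Y]

/-- A surjective isometry of unit spheres, through maps of the spaces. -/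
structure SphIso (F : X → Y) (G : Y → X) : Prop where
  normF : ∀ x, ‖x‖ = 1 → ‖F x‖ = 1
  normG : ∀ y, ‖y‖ = 1 → ‖G y‖ = 1
  left : ∀ x, ‖x‖ = 1 → G (F x) = x
  right : ∀ y, ‖y‖ = 1 → F (G y) = y
  iso : ∀ a b, ‖a‖ = 1 → ‖b‖ = 1 → ‖F a - F b‖ = ‖a - b‖

/-- An isometry between two point-symmetric bounded sets fixes the centre. -/
theorem centre_fixed (A : Set Z) (B : Set W) (h : Z → W) (k : W → Z) (m : Z) (m' : W) (D : ℝ)
    (hm : m ∈ A) (hA : ∀ z ∈ A, m + m - z ∈ A) (hB : ∀ w ∈ B, m' + m' - w ∈ B)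
    (hbd : ∀ z ∈ A, ‖z - m‖ ≤ D) (hh : ∀ z ∈ A, h z ∈ B) (hk : ∀ w ∈ B, k w ∈ A)
    (hkh : ∀ z ∈ A, k (h z) = z) (hhk : ∀ w ∈ B, h (k w) = w)
    (hiso : ∀ a ∈ A, ∀ b ∈ A, ‖h a - h b‖ = ‖a - b‖) : h m = m' := by
  let R : A ≃ᵢ A :=
    { toFun := fun z => ⟨m + m - z, hA z z.2⟩
      invFun := fun z => ⟨m + m - z, hA z z.2⟩
      left_inv := fun z => by ext; simp
      right_inv := fun z => by ext; simp
      isometry_toFun := Isometry.of_dist_eq fun a b => by
        simp [Subtype.dist_eq, dist_eq_norm, norm_sub_rev] }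
  let R' : B ≃ᵢ B :=
    { toFun := fun z => ⟨m' + m' - z, hB z z.2⟩
      invFun := fun z => ⟨m' + m' - z, hB z z.2⟩
      left_inv := fun z => by ext; simp
      right_inv := fun z => by ext; simp
      isometry_toFun := Isometry.of_dist_eq fun a b => by
        simp [Subtype.dist_eq, dist_eq_norm, norm_sub_rev] }
  let Φ : A ≃ᵢ B :=
    { toFun := fun z => ⟨h z, hh z z.2⟩
      invFun := fun w => ⟨k w, hk w w.2⟩
      left_inv := fun z => by ext; exact hkh z z.2
      right_inv := fun w => by ext; exact hhk w w.2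
      isometry_toFun := Isometry.of_dist_eq fun a b => by
        simp only [Subtype.dist_eq, dist_eq_norm]; exact hiso a a.2 b b.2 }
  let p : A := ⟨m, hm⟩
  have hbdd : BddAbove (Set.range fun e : A ≃ᵢ A => dist (e p) p) := by
    refine ⟨D, ?_⟩
    rintro _ ⟨e, rfl⟩
    simp only [Subtype.dist_eq, dist_eq_norm, p]
    exact hbd _ (e ⟨m, hm⟩).2
  set s := ⨆ e : A ≃ᵢ A, dist (e p) p
  have hfix : ∀ e : A ≃ᵢ A, dist (e p) p ≤ s / 2 := by
    intro e
    have h1 : dist ((((e.trans R).trans e.symm).trans R) p) p = 2 * dist (e p) p := by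
      have hRp : R p = p := by ext; change m + m - m = m; simp
      conv_lhs => arg 2; rw [← hRp]
      simp only [IsometryEquiv.trans_apply, R.dist_eq]
      rw [← e.dist_eq, e.apply_symm_apply]
      simp only [Subtype.dist_eq, dist_eq_norm]
      change ‖m + m - (e p : Z) - (e p : Z)‖ = 2 * ‖(e p : Z) - m‖
      rw [show m + m - (e p : Z) - (e p : Z) = (-2 : ℝ) • ((e p : Z) - m) by module, norm_smul]
      norm_num
    have h2 := le_ciSup hbdd (((e.trans R).trans e.symm).trans R)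
    rw [h1] at h2
    linarith
  have hs : s ≤ 0 := by
    have : s ≤ s / 2 := ciSup_le hfix
    linarith
  have key : dist (Φ.symm (R' (Φ p))) p ≤ 0 := by
    have := hfix ((Φ.trans R').trans Φ.symm)
    simp only [IsometryEquiv.trans_apply] at this
    linarith
  have h3 : R' (Φ p) = Φ p := by
    have := dist_le_zero.1 key
    conv_rhs => rw [← this, Φ.apply_symm_apply]
  have h4 : m' + m' - h m = h m := congrArg Subtype.val h3
  have h5 : (2 : ℝ) • h m = (2 : ℝ) • m' := by rw [two_smul, two_smul]; nth_rw 1 [← h4]; abel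
  exact smul_right_injective W two_ne_zero h5

/-- In a finite-dimensional space smooth points of the norm are dense. -/
theorem exists_smooth_near {E : Type*} [NormedAddCommGroup E] [NormedSpace ℝ E]
    [FiniteDimensional ℝ E] {q : E} {ε : ℝ} (hε : 0 < ε) :
    ∃ z, ‖z - q‖ < ε ∧ DifferentiableAt ℝ (norm : E → ℝ) z := by
  borelize E
  have hd := Measure.dense_of_ae
    ((lipschitzWith_one_norm (E := E)).ae_differentiableAt (μ := (Measure.addHaar : Measure E)))
  obtain ⟨z, hz1, hz2⟩ := hd.exists_dist_lt q hε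
  exact ⟨z, by rwa [← dist_eq_norm, dist_comm], hz1⟩

/-- Points at distance two from every point of a sphere neighbourhood lie on a common face. -/
theorem common_face {q : Y} (hq : ‖q‖ = 1) {r : ℝ} (hr : 0 < r) {y₁ y₂ : Y} (h₁ : ‖y₁‖ = 1)
    (h₂ : ‖y₂‖ = 1)
    (hfar : ∀ z, ‖z‖ = 1 → ‖z - q‖ < r → ‖y₁ - z‖ = 2 ∧ ‖y₂ - z‖ = 2)
    {a b : ℝ} (ha : 0 ≤ a) (hb : 0 ≤ b) (hab : a + b = 1) :
    ‖a • y₁ + b • y₂‖ = 1 ∧ ‖a • y₁ + b • y₂ - q‖ = 2 := by
  set c := a • y₁ + b • y₂ with hc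
  have hup : ‖c‖ ≤ 1 := by
    refine (norm_add_le _ _).trans ?_
    rw [norm_smul, norm_smul, h₁, h₂, Real.norm_of_nonneg ha, Real.norm_of_nonneg hb]
    linarith
  let V := Submodule.span ℝ ({y₁, y₂, q} : Set Y)
  have : FiniteDimensional ℝ V := FiniteDimensional.span_of_finite ℝ (Set.toFinite _)
  let v₁ : V := ⟨y₁, Submodule.subset_span (by simp)⟩
  let v₂ : V := ⟨y₂, Submodule.subset_span (by simp)⟩
  let vq : V := ⟨q, Submodule.subset_span (by simp)⟩
  have key : ∀ ε, 0 < ε → 2 - ε ≤ ‖c - q‖ ∧ 1 ≤ ‖c‖ := by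
    intro ε hε
    set δ := min (min r ε) 1 / 3 with hδ
    have hδ0 : 0 < δ := by have := lt_min (lt_min hr hε) one_pos; positivity
    obtain ⟨z₀, hz₀, hdiff⟩ := exists_smooth_near (q := vq) hδ0
    have hz₀1 : |‖z₀‖ - 1| ≤ δ := by
      have := abs_norm_sub_norm_le z₀ vq
      rw [show ‖vq‖ = 1 from hq] at this
      linarith
    have hδ1 : δ ≤ 1 / 3 := by
      have := min_le_right (min r ε) 1
      rw [hδ]; linarith
    have hpos : 0 < ‖z₀‖ := by linarith [abs_le.1 hz₀1]
    set z := ‖z₀‖⁻¹ • z₀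
    have hz : ‖z‖ = 1 := by rw [norm_smul, norm_inv, norm_norm, inv_mul_cancel₀ hpos.ne']
    have hzq : ‖z - vq‖ < 3 * δ := by
      have e : ‖z - z₀‖ = |‖z₀‖ - 1| := by
        rw [show z - z₀ = (‖z₀‖⁻¹ - 1) • z₀ by rw [sub_smul, one_smul], norm_smul, Real.norm_eq_abs]
        conv_lhs => arg 2; rw [← abs_of_pos hpos]
        rw [← abs_mul, sub_mul, inv_mul_cancel₀ hpos.ne', one_mul, abs_sub_comm]
      linarith [norm_sub_le_norm_sub_add_norm_sub z z₀ vq]
    have hdz : DifferentiableAt ℝ (norm : V → ℝ) z :=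
      (differentiableAt_norm_smul hdiff (inv_pos.2 hpos)).differentiableAt
    have h3 : 3 * δ ≤ r ∧ 3 * δ ≤ ε := by
      constructor <;> rw [hδ] <;>
        linarith [min_le_left (min r ε) 1, min_le_left r ε, min_le_right r ε]
    obtain ⟨f1, f2⟩ := hfar (z : Y) hz (lt_of_lt_of_le hzq h3.1)
    have hnd : ∀ v : V, ‖v‖ = 1 → ‖v - z‖ = 2 → nd z v = -1 := by
      intro v hv hvz
      obtain ⟨ψ, hψ1, hψ2⟩ := exists_dual_vector'' ℝ (v - z)
      have hle : ∀ w, |ψ w| ≤ ‖w‖ := fun w => by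
        have := ψ.le_of_opNorm_le hψ1 w
        rwa [one_mul, Real.norm_eq_abs] at this
      have e : ψ v - ψ z = 2 := by rw [← map_sub, hψ2, hvz]; norm_num
      have e1 := abs_le.1 ((hle v).trans hv.le)
      have e2 := abs_le.1 ((hle z).trans hz.le)
      have hγ : nd z = -ψ := nd_unique hdz (fun w => (neg_le_abs _).trans (hle w))
        (by rw [hz]; change -ψ z = 1; linarith)
      rw [hγ]; change -ψ v = -1; linarith
    have n1 := hnd v₁ h₁ f1
    have n2 := hnd v₂ h₂ f2
    set vc : V := a • v₁ + b • v₂ with hvc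
    have nc : nd z vc = -1 := by
      rw [hvc, map_add, map_smul, map_smul, n1, n2, smul_eq_mul, smul_eq_mul]; linarith
    have nz : nd z z = 1 := (nd_self hdz).trans hz
    have g1 : 2 ≤ ‖vc - z‖ := by
      have := nd_abs_le z (vc - z)
      rw [map_sub, nc, nz] at this
      norm_num at this
      exact this
    have g2 : 1 ≤ ‖vc‖ := by
      have := nd_abs_le z vc
      rw [nc] at this
      norm_num at this
      exact this
    have hvcq : (vc : Y) = c := by simp [hvc, hc, v₁, v₂]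
    refine ⟨?_, ?_⟩
    · have := norm_sub_le_norm_sub_add_norm_sub vc vq z
      rw [norm_sub_rev vq z] at this
      have e : ‖vc - vq‖ = ‖c - q‖ := by
        rw [← hvcq]; rfl
      linarith
    · rw [← hvcq]; exact g2
  have hone : ‖c‖ = 1 := le_antisymm hup (key 1 one_pos).2
  refine ⟨hone, le_antisymm ?_ (le_of_forall_pos_le_add fun ε hε => by linarith [(key ε hε).1])⟩
  exact (norm_sub_le c q).trans (by rw [hone, hq]; norm_num)

end Vale.Agent.P084.TwoLines
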